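import Vale.Agent.P275IN.Int
import Vale.Agent.P275MO.Props

/-!
P275 (helper23): holomorphic frames in families, blocks FINT and HINT.
-/

set_option linter.all false

open scoped Topology ContDiff BoundedContinuousFunction Matrix.Norms.Operator
open Filter Set Complex Metric Matrix
open Vale.Agent.P281Z.Hm Vale.Agent.P275NA Vale.Agent.P275CT Vale.Agent.P275HK

noncomputable section

namespace Vale.Agent.P275IN

section fam

variable {T : Type} [TopologicalSpace T] {V : Set T}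

/-- jointly continuous families with a common compact support are continuous in the sup norm -/
theorem cont_bc {F : Type} [NormedAddCommGroup F] {γ : T → ℂ →ᵇ F} {K : Set ℂ} (hK : IsCompact K)
    (h0 : ∀ s ∈ V, ∀ z, z ∉ K → γ s z = 0)
    (hc : ContinuousOn (fun p : T × ℂ => γ p.1 p.2) (V ×ˢ K)) : ContinuousOn γ V := by
  intro t ht
  refine Metric.tendsto_nhds.2 fun ε hε => ?_
  obtain ⟨v, hv, h⟩ := hK.mem_uniformity_of_prod (f := fun s z => γ s z) hc ht
    (dist_mem_uniformity (half_pos hε))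
  filter_upwards [hv, self_mem_nhdsWithin] with s h1 h2
  refine lt_of_le_of_lt ((BoundedContinuousFunction.dist_le (half_pos hε).le).2 fun z => ?_)
    (half_lt_self hε)
  by_cases hz : z ∈ K
  · exact le_of_lt (h s h1 z hz)
  · rw [h0 s h2 z hz, h0 t ht z hz, dist_self]
    exact (half_pos hε).le

theorem eval_cont {F : Type} [NormedAddCommGroup F] {γ : T → ℂ →ᵇ F} (h : ContinuousOn γ V)
    (U : Set ℂ) : ContinuousOn (fun p : T × ℂ => γ p.1 p.2) (V ×ˢ U) :=
  continuous_eval.comp_continuousOn (f := fun p : T × ℂ => (γ p.1, p.2))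
    ((h.comp continuousOn_fst fun _ hp => hp.1).prodMk continuousOn_snd)

theorem snd_cont {F : Type} [TopologicalSpace F] {f : ℂ → F} {U : Set ℂ} (h : ContinuousOn f U) :
    ContinuousOn (fun p : T × ℂ => f p.2) (V ×ˢ U) := h.comp continuousOn_snd fun _ hp => hp.2

end fam

variable {n : Type} [Fintype n] [DecidableEq n]

theorem dz_out {γ : ℂ → Mx n} {c : ℂ} {R : ℝ} (hs : ∀ z, R < ‖z - c‖ → γ z = 0) {z : ℂ}
    (hz : R < ‖z - c‖) : dz γ z = 0 := by
  have e : γ =ᶠ[𝓝 z] fun _ => 0 :=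
    ((isOpen_lt (f := fun _ => R) (g := fun x : ℂ => ‖x - c‖) continuous_const
      (by fun_prop)).eventually_mem hz).mono hs
  rw [dz, wd_congr e, wd_const]

theorem exists_dz {γ : ℂ → Mx n} (h : ContDiff ℝ ∞ γ) (hc : HasCompactSupport γ) :
    ∃ γ' : Bm n, ∀ z, γ' z = dz γ z := by
  obtain ⟨g, hg⟩ := exists_bc (dz_cont (h.of_le (by exact_mod_cast le_top))) (dz_cs hc)
  exact ⟨g, congrFun hg⟩

theorem dz_con {f : ℂ → Mx n} {U : Set ℂ} (hU : IsOpen U) (h : ContDiffOn ℝ ∞ f U) :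
    ContinuousOn (dz f) U := dz_contOn hU (h.of_le (by exact_mod_cast le_top))

theorem fint (n : ℕ) : P275MO.FINT n := by
  classical
  intro T _ α V t r' r hr ht hα htr hc
  rcases le_or_gt r 0 with h0 | h0
  · rw [ball_eq_empty.2 (hr.le.trans h0)]
    refine ⟨V, self_mem_nhdsWithin, 0, subset_rfl, ?_, fun _ => ?_, fun _ _ => ?_⟩
    · simp
    · simp
    · simp
  obtain ⟨r1, r2, r3, a1, a2, a3, a4, a5⟩ := radii hr h0
  obtain ⟨F, hF⟩ := exists_fr1 a5 (hα t ht) (htr t ht)
  have s1 : ball (0 : ℂ) r' ⊆ ball 0 r3 := ball_subset_ball (by linarith)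
  have s2 : closedBall (0 : ℂ) r2 ⊆ ball 0 r3 := closedBall_subset_ball a4
  have s3 : ball (0 : ℂ) r3 ⊆ ball 0 r := ball_subset_ball a5.le
  have hd : ∀ z ∈ ball (0 : ℂ) r3, (F z).det ≠ 0 := fun z hz => by
    rw [(hF z hz).2.1]; exact one_ne_zero
  have c1 : ContDiffOn ℝ ∞ F (ball 0 r3) := fun z hz => (hF z hz).1.contDiffWithinAt
  have c2 : ContDiffOn ℝ ∞ (fun z => (F z)⁻¹) (ball 0 r3) := fun z hz =>
    (cd_inv (hF z hz).1 (hd z hz)).contDiffWithinAt
  have R0 : 0 < r2 := a2.trans a3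
  obtain ⟨φ, p1, p2, p3, p4, p5, p6⟩ := exists_cut (n := Fin n) (c := 0) a2 a3
  obtain ⟨L, -, hL⟩ := exists_T (n := Fin n) 0 R0
  have c3 : ∀ s ∈ V, ContDiffOn ℝ ∞ (fun z => α s z - α t z) (ball 0 r3) := fun s hs =>
    ((hα s hs).sub (hα t ht)).mono s3
  have c4 : ∀ s ∈ V, ContDiffOn ℝ ∞ (fun z => (F z)⁻¹ * (α s z - α t z) * F z) (ball 0 r3) :=
    fun s hs z hz => (cd_mul (cd_mul (c2.contDiffAt (isOpen_ball.mem_nhds hz))
      ((c3 s hs).contDiffAt (isOpen_ball.mem_nhds hz))) (hF z hz).1).contDiffWithinAt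
  have ex : ∀ s, ∃ γ γ' : Bm (Fin n), s ∈ V →
      (∀ z, γ z = φ z • ((F z)⁻¹ * (α s z - α t z) * F z)) ∧ ContDiff ℝ ∞ γ ∧
        (∀ z, r2 < ‖z - 0‖ → γ z = 0) ∧ ∀ z, γ' z = dz (⇑γ) z := fun s => by
    by_cases hs : s ∈ V
    · obtain ⟨γ, e, sm⟩ := p6 _ _ isOpen_ball s2 (c4 s hs)
      have h1 : ∀ z, r2 < ‖z - 0‖ → γ z = 0 := fun z hz => by rw [e, p5 z hz, zero_smul]
      obtain ⟨γ', e'⟩ := exists_dz sm (cs_at h1)
      exact ⟨γ, γ', fun _ => ⟨e, sm, h1, e'⟩⟩
    · exact ⟨0, 0, fun h => (hs h).elim⟩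
  choose γ γ' hγ using ex
  have out : ∀ z, z ∉ closedBall (0 : ℂ) r2 → r2 < ‖z - 0‖ := fun z hz => by simpa using hz
  have j0 : ContinuousOn (fun p : T × ℂ => α p.1 p.2 - α t p.2) (V ×ˢ ball 0 r3) :=
    (hc.mono (prod_mono subset_rfl s3)).sub (snd_cont ((hα t ht).continuousOn.mono s3))
  have j1 : ContinuousOn (fun p : T × ℂ => (F p.2)⁻¹ * (α p.1 p.2 - α t p.2) * F p.2)
      (V ×ˢ ball 0 r3) := ((snd_cont c2.continuousOn).mul j0).mul (snd_cont c1.continuousOn)
  have k1 : ContinuousOn γ V := cont_bc (isCompact_closedBall 0 r2)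
    (fun s hs z hz => (hγ s hs).2.2.1 z (out z hz))
    ((((snd_cont p1.continuous.continuousOn).smul j1).mono (prod_mono subset_rfl s2)).congr
      fun p hp => (hγ _ hp.1).1 _)
  have g0 : γ t = 0 := BoundedContinuousFunction.ext fun z => by simp [(hγ t ht).1]
  have hV : ∀ᶠ s in 𝓝[V] t, ‖L‖ * ‖γ s‖ < 1 / 2 :=
    (((k1 t ht).norm.const_mul ‖L‖).tendsto).eventually_lt tendsto_const_nhds (by simp [g0])
  let V' := {s | s ∈ V ∧ ‖L‖ * ‖γ s‖ < 1 / 2}
  have sV : V' ⊆ V := fun _ h => h.1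
  have co := fun s (hs : s ∈ V') => core R0 hL hs.2 (hγ s hs.1).2.1 (hγ s hs.1).2.2.1
  have k2 : ContinuousOn (fun s => sol L (γ s)) V' := fun s hs =>
    (sol_an (by linarith [hs.2])).continuousAt.comp_continuousWithinAt ((k1.mono sV) s hs)
  have dF : ∀ z ∈ ball (0 : ℂ) r3, DifferentiableAt ℝ F z := fun z hz =>
    (hF z hz).1.differentiableAt (by simp)
  refine ⟨V', inter_mem self_mem_nhdsWithin hV, fun s z => F z * sol L (γ s) z, sV,
    (snd_cont (c1.continuousOn.mono s1)).mul (eval_cont k2 _), fun hz => ?_, fun s hs =>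
    ⟨fun z hz => (cd_mul (hF z (s1 hz)).1 (co s hs).1.contDiffAt).contDiffWithinAt,
      fun z hz => ⟨?_, ?_⟩⟩⟩
  · have j2 : ContinuousOn (fun p : T × ℂ => dz (α p.1) p.2 - dz (α t) p.2) (V ×ˢ ball 0 r3) :=
      (hz.mono (prod_mono subset_rfl s3)).sub (snd_cont ((dz_con isOpen_ball (hα t ht)).mono s3))
    have j3 := (((snd_cont (dz_con isOpen_ball c2)).mul j0).add
      ((snd_cont c2.continuousOn).mul j2)).mul (snd_cont c1.continuousOn)
    have j4 := j3.add (((snd_cont c2.continuousOn).mul j0).mul (snd_cont (dz_con isOpen_ball c1)))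
    have p1' : ContDiff ℝ 1 φ := p1.of_le (by exact_mod_cast le_top)
    have j5 := ((snd_cont (dz_cont p1').continuousOn).smul j1).add
      ((snd_cont p1.continuous.continuousOn).smul j4)
    have k3 : ContinuousOn γ' V := cont_bc (isCompact_closedBall 0 r2)
      (fun s hs z hz => ((hγ s hs).2.2.2 z).trans (dz_out (hγ s hs).2.2.1 (out z hz)))
      ((j5.mono (prod_mono subset_rfl s2)).congr fun p hp => by
        have hz := s2 hp.2
        have n1 := isOpen_ball.mem_nhds hz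
        have d1 := (c2.contDiffAt n1).differentiableAt (by simp)
        have d2 := ((hα _ hp.1).contDiffAt (isOpen_ball.mem_nhds (s3 hz))).differentiableAt (by simp)
        have d3 := ((hα t ht).contDiffAt (isOpen_ball.mem_nhds (s3 hz))).differentiableAt (by simp)
        show γ' p.1 p.2 = _
        rw [(hγ _ hp.1).2.2.2, show ⇑(γ p.1) = _ from funext (hγ _ hp.1).1,
          dz_cut isOpen_ball p1' (p4 ▸ s2) ((c4 _ hp.1).of_le (by exact_mod_cast le_top))]
        simp only [dz]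
        rw [wd_mul (df_mul d1 (d2.fun_sub d3)) (dF _ hz), wd_mul d1 (d2.fun_sub d3), wd_sub d2 d3]
        rfl)
    have k4 : ContinuousOn (fun s => dsol L (γ s) (γ' s)) V' := fun s hs =>
      (dsol_an (by linarith [hs.2]) (γ' s)).continuousAt.comp_continuousWithinAt
        (f := fun s => (γ s, γ' s)) (((k1.prodMk k3).mono sV) s hs)
    refine (((snd_cont ((dz_con isOpen_ball c1).mono s1)).mul (eval_cont k2 _)).add
      ((snd_cont (c1.continuousOn.mono s1)).mul (eval_cont k4 _))).congr fun p hp => ?_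
    show dz (fun z => F z * sol L (γ p.1) z) p.2 = _
    rw [dz, wd_mul (dF _ (s1 hp.2)) ((co _ hp.1).1.differentiable (by simp) _)]
    exact congrArg (fun X => _ + F p.2 * X)
      ((co _ hp.1).2.2.2.2 _ (hγ _ hp.1.1).2.2.2 p.2).symm
  · show (F z * _).det = 1
    rw [det_mul, (hF z (s1 hz)).2.1, one_mul]
    refine (co s hs).2.2.2.1 (fun x => ?_) z
    by_cases hx : x ∈ closedBall (0 : ℂ) r2
    · rw [(hγ s hs.1).1, trace_smul, trace_mul_cycle, mul_nonsing_inv _ (hd x (s2 hx)).isUnit,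
        Matrix.one_mul, trace_sub, htr s hs.1 x (s3 (s2 hx)), htr t ht x (s3 (s2 hx)), sub_zero,
        smul_zero]
    · rw [(hγ s hs.1).2.2.1 x (out x hx), trace_zero]
  · have := (co s hs).2.1 z
    rw [(hγ s hs.1).1, p3 z (ball_subset_closedBall (ball_subset_ball a1.le hz)), one_smul] at this
    exact db_prod (dF z (s1 hz)) ((co s hs).1.differentiable (by simp) z) (hd z (s1 hz))
      (hF z (s1 hz)).2.2 this

theorem hint (n : ℕ) : P275MO.HINT n := by
  intro E _ _ _ α r' r hr hα htr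
  rcases le_or_gt r 0 with h0 | h0
  · have h1 : r' < 0 := hr.trans_le h0
    refine ⟨fun _ => 1, fun _ => 0, fun _ _ => 1, analyticAt_const, analyticAt_const, rfl, rfl,
      Eventually.of_forall fun _ => ⟨contDiffOn_const, fun _ => rfl, fun w hw => ?_⟩⟩
    exact absurd (mem_ball_zero_iff.1 hw) (by linarith [norm_nonneg w])
  obtain ⟨r1, r2, r3, a1, a2, a3, a4, a5⟩ := radii hr h0
  have s2 : closedBall (0 : ℂ) r2 ⊆ ball 0 r := closedBall_subset_ball (a4.trans a5)
  have R0 : 0 < r2 := a2.trans a3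
  obtain ⟨φ, p1, p2, p3, p4, p5, p6⟩ := exists_cut (n := Fin n) (c := 0) a2 a3
  obtain ⟨L, -, hL⟩ := exists_T (n := Fin n) 0 R0
  choose γ e sm using fun s => p6 _ _ isOpen_ball s2 (hα s)
  have h1 : ∀ s z, r2 < ‖z - 0‖ → γ s z = 0 := fun s z hz => by rw [e, p5 z hz, zero_smul]
  choose γ' e' using fun s => exists_dz (sm s) (cs_at (h1 s))
  have df : ∀ s z, DifferentiableAt ℝ (γ s) z := fun s z => (sm s).differentiable (by simp) z
  let g : E →ₗ[ℂ] Bm (Fin n) :=
    { toFun := γ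
      map_add' := fun a b => BoundedContinuousFunction.ext fun z => by simp [e]
      map_smul' := fun a b => BoundedContinuousFunction.ext fun z => by
        simp [e, smul_comm (φ z) a] }
  let g' : E →ₗ[ℂ] Bm (Fin n) :=
    { toFun := γ'
      map_add' := fun a b => BoundedContinuousFunction.ext fun z => by
        rw [BoundedContinuousFunction.add_apply, e', e', e', show γ (a + b) = _ from g.map_add a b]
        exact wd_add (df a z) (df b z) 1
      map_smul' := fun a b => BoundedContinuousFunction.ext fun z => by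
        rw [BoundedContinuousFunction.smul_apply, e', e', show γ (a • b) = _ from g.map_smul a b]
        exact wd_msmul a (df b z) 1 }
  have an1 : AnalyticAt ℂ γ 0 := (LinearMap.toContinuousLinearMap g).analyticAt 0
  have an2 : AnalyticAt ℂ γ' 0 := (LinearMap.toContinuousLinearMap g').analyticAt 0
  have z1 : γ 0 = 0 := g.map_zero
  have z2 : γ' 0 = 0 := g'.map_zero
  have q0 : ‖L‖ * ‖γ 0‖ < 1 / 2 := by simp [z1]
  let ρ := BoundedContinuousFunction.compContinuousCLM (Mx (Fin n)) ℂ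
    (⟨Subtype.val, continuous_subtype_val⟩ : C(closedBall (0 : ℂ) r', ℂ))
  refine ⟨fun s => ρ (sol L (γ s)), fun s => ρ (dsol L (γ s) (γ' s)), fun s => ⇑(sol L (γ s)),
    (ρ.analyticAt _).comp ((sol_an (by linarith)).comp an1),
    (ρ.analyticAt _).comp ((dsol_an (by linarith) (γ' 0)).comp_of_eq
      (f := fun s => (γ s, γ' s)) (an1.prod an2) rfl), ?_, ?_, ?_⟩
  · show ρ (sol L (γ 0)) = 1
    rw [z1, sol_zero']
    rfl
  · show ρ (dsol L (γ 0) (γ' 0)) = 0
    rw [z1, z2, dsol_zero, map_zero]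
  · filter_upwards [((an1.continuousAt.norm.const_mul ‖L‖).tendsto).eventually_lt
      tendsto_const_nhds q0] with s hs
    obtain ⟨u1, u2, -, u4, u5⟩ := core R0 hL hs (sm s) (h1 s)
    refine ⟨u1.contDiffOn, fun _ => rfl, fun w hw => ⟨u5 _ (e' s) w, u4 (fun x => ?_) w, ?_⟩⟩
    · by_cases hx : x ∈ closedBall (0 : ℂ) r2
      · rw [e, trace_smul, htr s x (s2 hx), smul_zero]
      · rw [h1 s x (by simpa using hx), trace_zero]
    · have := u2 w
      rwa [e, p3 w (ball_subset_closedBall (ball_subset_ball a1.le hw)), one_smul] at this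

end Vale.Agent.P275IN
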