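import Vale.Agent.P275NA.Defs
import Mathlib.Analysis.Complex.HasPrimitives
import Mathlib.Analysis.Complex.LocallyUniformLimit
import Mathlib.Analysis.ODE.Gronwall

/-!
P275 (helper23): linear holomorphic differential equations on a disc, block ODE.
-/

set_option linter.all false

open scoped Matrix.Norms.Operator Topology
open Filter Set Matrix Complex Metric
open Vale.Agent.P281Z.Hm Vale.Agent.P275NA

noncomputable section

namespace Vale.Agent.P275IN

section general

variable {E : Type} [NormedAddCommGroup E] [NormedSpace ℂ E]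

theorem ray {f : ℂ → E} {f' : E} {z : ℂ} {t : ℝ} (h : HasDerivAt f f' ((t : ℂ) * z)) :
    HasDerivAt (fun s : ℝ => f ((s : ℂ) * z)) (z • f') t := by
  have h1 : HasDerivAt (fun s : ℝ => (s : ℂ) * z) z t := by
    simpa using (Complex.ofRealCLM.hasDerivAt (x := t)).mul_const z
  have h2 := (h.hasFDerivAt.restrictScalars ℝ).comp_hasDerivAt t h1
  simpa [Function.comp_def] using h2

theorem ray_norm {z : ℂ} {t : ℝ} (ht : t ∈ Icc (0 : ℝ) 1) : ‖(t : ℂ) * z‖ = t * ‖z‖ := by
  rw [norm_mul, norm_real, Real.norm_of_nonneg ht.1]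

theorem ray_le {z : ℂ} {t : ℝ} (ht : t ∈ Icc (0 : ℝ) 1) : ‖(t : ℂ) * z‖ ≤ ‖z‖ := by
  rw [ray_norm ht]
  exact mul_le_of_le_one_left (norm_nonneg _) ht.2

theorem ray_mem {z : ℂ} {t r : ℝ} (ht : t ∈ Icc (0 : ℝ) 1) (hz : z ∈ ball (0 : ℂ) r) :
    (t : ℂ) * z ∈ ball (0 : ℂ) r :=
  mem_ball_zero_iff.2 ((ray_le ht).trans_lt (mem_ball_zero_iff.1 hz))

/-- Gronwall's inequality along rays -/
theorem gron {D D' : ℂ → E} {ρ K e δ : ℝ} (hK : 0 ≤ K) (he : 0 ≤ e)
    (h : ∀ z ∈ ball (0 : ℂ) ρ, HasDerivAt D (D' z) z ∧ ‖D' z‖ ≤ K * ‖D z‖ + e) (h0 : ‖D 0‖ ≤ δ) :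
    ∀ z ∈ ball (0 : ℂ) ρ, ‖D z‖ ≤ gronwallBound δ (ρ * K) (ρ * e) 1 := by
  intro z hz
  have hd : ∀ t ∈ Icc (0 : ℝ) 1, HasDerivAt (fun s : ℝ => D ((s : ℂ) * z))
      (z • D' ((t : ℂ) * z)) t := fun t ht => ray (h _ (ray_mem ht hz)).1
  have := norm_le_gronwallBound_of_norm_deriv_right_le (δ := δ) (K := ρ * K) (ε := ρ * e)
    (fun t ht => (hd t ht).continuousAt.continuousWithinAt)
    (fun t ht => (hd t (Ico_subset_Icc_self ht)).hasDerivWithinAt) (by simpa using h0)
    (fun t ht => by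
      have h1 := (h _ (ray_mem (Ico_subset_Icc_self ht) hz)).2
      have h2 := (mem_ball_zero_iff.1 hz).le
      rw [norm_smul]
      calc _ ≤ ρ * (K * ‖D ((t : ℂ) * z)‖ + e) :=
            mul_le_mul h2 h1 (norm_nonneg _) ((norm_nonneg _).trans h2)
        _ = _ := by ring) 1 ⟨zero_le_one, le_rfl⟩
  simpa using this

/-- uniqueness -/
theorem sol_zero {L : ℂ → E →L[ℂ] E} {y : ℂ → E} {r : ℝ} (hL : ContinuousOn L (ball 0 r))
    (h : ∀ z ∈ ball (0 : ℂ) r, HasDerivAt y (L z (y z)) z) (h0 : y 0 = 0) :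
    ∀ z ∈ ball (0 : ℂ) r, y z = 0 := by
  intro z hz
  obtain ⟨ρ, h1, h2⟩ := exists_between (mem_ball_zero_iff.1 hz)
  obtain ⟨M, hM⟩ := (isCompact_closedBall (0 : ℂ) ρ).exists_bound_of_continuousOn
    (hL.mono (closedBall_subset_ball h2))
  have := gron (D := y) (D' := fun z => L z (y z)) (ρ := ρ) (K := max M 0) (e := 0) (δ := 0)
    (le_max_right _ _) le_rfl (fun x hx => ⟨h x (ball_subset_ball h2.le hx), by
      rw [add_zero]
      exact (L x).le_of_opNorm_le ((hM x (ball_subset_closedBall hx)).trans (le_max_left _ _)) _⟩)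
    (by simp [h0]) z (mem_ball_zero_iff.2 h1)
  rw [mul_zero, gronwallBound_ε0_δ0] at this
  exact norm_le_zero_iff.1 this

variable [CompleteSpace E]

/-- existence on the whole disc -/
theorem exists_sol {L : ℂ → E →L[ℂ] E} {r : ℝ} (hL : DifferentiableOn ℂ L (ball 0 r)) (y0 : E) :
    ∃ y : ℂ → E, y 0 = y0 ∧ ∀ z ∈ ball (0 : ℂ) r, HasDerivAt y (L z (y z)) z := by
  have st : ∀ f : {f : ℂ → E // DifferentiableOn ℂ f (ball 0 r)},
      ∃ g : {f : ℂ → E // DifferentiableOn ℂ f (ball 0 r)}, g.1 0 = 0 ∧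
        ∀ z ∈ ball (0 : ℂ) r, HasDerivAt g.1 (L z (f.1 z)) z := fun f => by
    obtain ⟨g, g0, hg⟩ := (hL.clm_apply f.2).isExactOn_ball.with_val_at 0 0
    exact ⟨⟨g, fun z hz => (hg z hz).differentiableAt.differentiableWithinAt⟩, g0, hg⟩
  choose S S0 hS using st
  let P : ℕ → {f : ℂ → E // DifferentiableOn ℂ f (ball 0 r)} := fun k =>
    S^[k] ⟨fun _ => y0, differentiableOn_const _⟩
  have P0 : ∀ z, (P 0).1 z = y0 := fun _ => rfl
  have Ps : ∀ k, P (k + 1) = S (P k) := fun k => Function.iterate_succ_apply' _ _ _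
  have bd : ∀ ρ M : ℝ, ρ < r → 0 ≤ M → (∀ z ∈ closedBall (0 : ℂ) ρ, ‖L z‖ ≤ M) → ∀ k : ℕ,
      ∀ z ∈ closedBall (0 : ℂ) ρ, ‖(P k).1 z‖ ≤ ‖y0‖ * ((M * ‖z‖) ^ k / k.factorial) := by
    intro ρ M hρ hM0 hM k
    induction k with
    | zero => intro z _; simp [P0]
    | succ k ih =>
      intro z hz
      have hz' := closedBall_subset_ball hρ hz
      have hd : ∀ t ∈ Icc (0 : ℝ) 1, HasDerivAt (fun s : ℝ => (S (P k)).1 ((s : ℂ) * z))
          (z • L ((t : ℂ) * z) ((P k).1 ((t : ℂ) * z))) t :=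
        fun t ht => ray (hS _ _ (ray_mem ht hz'))
      have hB : ∀ t : ℝ, HasDerivAt
          (fun s : ℝ => ‖y0‖ * ((M * ‖z‖) ^ (k + 1) / (k + 1).factorial) * s ^ (k + 1))
          (‖y0‖ * ((M * ‖z‖) ^ (k + 1) / (k + 1).factorial) * ((k + 1 : ℕ) * t ^ k)) t :=
        fun t => by simpa using (hasDerivAt_pow (k + 1) t).const_mul _
      have := image_norm_le_of_norm_deriv_right_le_deriv_boundary
        (fun t ht => (hd t ht).continuousAt.continuousWithinAt)
        (fun t ht => (hd t (Ico_subset_Icc_self ht)).hasDerivWithinAt) (by simp [S0]) hB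
        (fun t ht => by
          have ht' := Ico_subset_Icc_self ht
          have hm : (t : ℂ) * z ∈ closedBall (0 : ℂ) ρ :=
            mem_closedBall_zero_iff.2 ((ray_le ht').trans (mem_closedBall_zero_iff.1 hz))
          have h1 := ih _ hm
          rw [ray_norm ht'] at h1
          have h2 := (L ((t : ℂ) * z)).le_of_opNorm_le (hM _ hm) ((P k).1 ((t : ℂ) * z))
          rw [norm_smul]
          calc _ ≤ ‖z‖ * (M * (‖y0‖ * ((M * (t * ‖z‖)) ^ k / k.factorial))) := by
                gcongr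
                exact h2.trans (mul_le_mul_of_nonneg_left h1 hM0)
            _ = _ := by
                have : (k.factorial : ℝ) ≠ 0 := by positivity
                rw [Nat.factorial_succ]
                push_cast
                field_simp
                ring) (show (1 : ℝ) ∈ Icc (0 : ℝ) 1 from ⟨zero_le_one, le_rfl⟩)
      rw [Ps]
      simpa using this
  refine ⟨fun z => ∑' k, (P k).1 z, ?_, fun z hz => ?_⟩
  · show ∑' k, (P k).1 0 = y0
    rw [tsum_eq_single 0, P0]
    intro k hk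
    obtain ⟨k, rfl⟩ := Nat.exists_eq_succ_of_ne_zero hk
    rw [Nat.succ_eq_add_one, Ps, S0]
  · obtain ⟨ρ, h1, h2⟩ := exists_between (mem_ball_zero_iff.1 hz)
    obtain ⟨M0, hM⟩ := (isCompact_closedBall (0 : ℂ) ρ).exists_bound_of_continuousOn
      (hL.continuousOn.mono (closedBall_subset_ball h2))
    set M := max M0 0
    have hM0 : 0 ≤ M := le_max_right _ _
    have hb := bd ρ M h2 hM0 fun x hx => (hM x hx).trans (le_max_left _ _)
    have hu : Summable fun k : ℕ => ‖y0‖ * ((M * ρ) ^ k / k.factorial) :=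
      (Real.summable_pow_div_factorial _).mul_left _
    have hle : ∀ k, ∀ w ∈ ball (0 : ℂ) ρ, ‖(P k).1 w‖ ≤ ‖y0‖ * ((M * ρ) ^ k / k.factorial) :=
      fun k w hw => (hb k w (ball_subset_closedBall hw)).trans (by
        gcongr
        exact (mem_ball_zero_iff.1 hw).le)
    have hdf : ∀ k, DifferentiableOn ℂ (P k).1 (ball 0 ρ) := fun k =>
      (P k).2.mono (ball_subset_ball h2.le)
    have hz1 : z ∈ ball (0 : ℂ) ρ := mem_ball_zero_iff.2 h1
    have d1 := (differentiableOn_tsum_of_summable_norm hu hdf isOpen_ball hle).differentiableAt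
      (isOpen_ball.mem_nhds hz1)
    have d2 := hasSum_deriv_of_summable_norm hu hdf isOpen_ball hle hz1
    have s1 : HasSum (fun k => (P k).1 z) (∑' k, (P k).1 z) :=
      (Summable.of_norm_bounded hu fun k => hle k z hz1).hasSum
    have s2 : HasSum (fun k => deriv (P (k + 1)).1 z) (L z (∑' k, (P k).1 z)) := by
      have := (L z).hasSum s1
      refine this.congr_fun ?_ 
      intro k
      rw [Ps, (hS _ z hz).deriv]
    have s3 := (hasSum_nat_add_iff (f := fun k => deriv (P k).1 z) 1).1 s2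
    have e0 : deriv (P 0).1 z = 0 := deriv_const z y0
    rw [Finset.sum_range_one, e0, add_zero] at s3
    rw [← d2.unique s3]
    exact d1.hasDerivAt

end general

variable {n : Type} [Fintype n] [DecidableEq n]

/-- left multiplication -/
def mL : Mx n →L[ℂ] Mx n →L[ℂ] Mx n := ContinuousLinearMap.mul ℂ (Mx n)

@[simp] theorem mL_apply (A B : Mx n) : mL A B = A * B := rfl

/-- right multiplication -/
def mR : Mx n →L[ℂ] Mx n →L[ℂ] Mx n := (ContinuousLinearMap.mul ℂ (Mx n)).flip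

@[simp] theorem mR_apply (A B : Mx n) : mR A B = B * A := rfl

theorem det_ne_of {A B : Mx n} (h : B * A = 1) : A.det ≠ 0 := fun e => by
  have := congrArg Matrix.det h
  rw [det_mul, e, mul_zero, det_one] at this
  exact zero_ne_one this

/-- the fundamental solution and its inverse -/
theorem exists_frame {A : ℂ → Mx n} {r : ℝ} (hA : DifferentiableOn ℂ A (ball 0 r)) :
    ∃ Y : ℂ → Mx n, Y 0 = 1 ∧ ∀ z ∈ ball (0 : ℂ) r,
      HasDerivAt Y (-(A z * Y z)) z ∧ (Y z).det ≠ 0 := by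
  obtain ⟨Y, Y0, hY⟩ := exists_sol (L := fun z => -mL (A z))
    (mL.differentiable.comp_differentiableOn hA).neg (1 : Mx n)
  obtain ⟨W, W0, hW⟩ := exists_sol (L := fun z => mR (A z))
    (mR.differentiable.comp_differentiableOn hA) (1 : Mx n)
  have hY' : ∀ z ∈ ball (0 : ℂ) r, HasDerivAt Y (-(A z * Y z)) z := hY
  have hW' : ∀ z ∈ ball (0 : ℂ) r, HasDerivAt W (W z * A z) z := hW
  have := sol_zero (L := fun _ => 0) (y := fun z => W z * Y z - 1) (r := r) continuousOn_const
    (fun z hz => by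
      have h := ((hW' z hz).fun_mul (hY' z hz)).sub_const 1
      have e : W z * A z * Y z + W z * -(A z * Y z) = 0 := by noncomm_ring
      rw [e] at h
      exact h) (by simp [Y0, W0])
  exact ⟨Y, Y0, fun z hz => ⟨hY' z hz, det_ne_of (sub_eq_zero.1 (this z hz))⟩⟩

theorem ode : ODE := by
  intro n _ _ r A hA
  obtain ⟨Y, Y0, hY⟩ := exists_frame hA.differentiableOn
  have hd : DifferentiableOn ℂ Y (ball 0 r) := fun z hz =>
    (hY z hz).1.differentiableAt.differentiableWithinAt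
  refine ⟨Y, hd.analyticOnNhd isOpen_ball, Y0,
    fun z hz => ⟨(hY z hz).2, add_eq_zero_iff_eq_neg.2 (hY z hz).1.deriv⟩, fun ρ ε hρ hε => ?_⟩
  obtain ⟨M, hM⟩ := (isCompact_closedBall (0 : ℂ) ρ).exists_bound_of_continuousOn
    (hA.continuousOn.mono (closedBall_subset_ball hρ))
  obtain ⟨N, hN⟩ := (isCompact_closedBall (0 : ℂ) ρ).exists_bound_of_continuousOn
    (hd.continuousOn.mono (closedBall_subset_ball hρ))
  have hc : Continuous fun δ : ℝ => gronwallBound 0 (ρ * (max M 0 + 1)) (ρ * (δ * max N 0)) 1 :=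
    (gronwallBound_continuous_ε _ _ _).comp (by fun_prop)
  have h1 : ∀ᶠ δ in 𝓝 (0 : ℝ),
      gronwallBound 0 (ρ * (max M 0 + 1)) (ρ * (δ * max N 0)) 1 < ε :=
    hc.continuousAt.eventually_lt continuousAt_const (by simpa [gronwallBound_ε0_δ0] using hε)
  obtain ⟨δ, ⟨hδ, hδ1⟩, hδ0⟩ :=
    (((h1.and (eventually_lt_nhds zero_lt_one)).filter_mono nhdsWithin_le_nhds).and
      (self_mem_nhdsWithin (a := (0 : ℝ)) (s := Ioi 0))).exists
  refine ⟨δ, hδ0, fun B Z hZ Z0 hB z hz => le_trans ?_ hδ.le⟩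
  refine gron (D := fun x => Z x - Y x) (D' := fun x => -(B x * (Z x - Y x)) - (B x - A x) * Y x)
    (by positivity) (mul_nonneg (le_of_lt hδ0) (le_max_right _ _)) (fun x hx => ⟨?_, ?_⟩)
    (by simp [Y0, Z0]) z hz
  · have h := (hZ x hx).differentiableAt.hasDerivAt.fun_sub (hY x (ball_subset_ball hρ.le hx)).1
    have e : deriv Z x - -(A x * Y x) = -(B x * (Z x - Y x)) - (B x - A x) * Y x := by
      rw [eq_neg_of_add_eq_zero_left (hB x hx).2]
      noncomm_ring
    exact h.congr_deriv e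
  · have hx' := ball_subset_closedBall hx
    have b1 : ‖B x‖ ≤ max M 0 + 1 := by
      have := norm_add_le (A x) (B x - A x)
      rw [add_sub_cancel] at this
      linarith [hM x hx', (hB x hx).1, le_max_left M 0]
    refine (norm_sub_le _ _).trans (add_le_add ?_ ?_)
    · rw [norm_neg]
      exact (norm_mul_le _ _).trans (mul_le_mul_of_nonneg_right b1 (norm_nonneg _))
    · exact (norm_mul_le _ _).trans (mul_le_mul (hB x hx).1 ((hN x hx').trans (le_max_left _ _))
        (norm_nonneg _) (le_of_lt hδ0))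

end Vale.Agent.P275IN
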