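import Vale.Agent.P275IN.Sol
import Vale.Agent.P275IN.Ode
import Vale.Agent.P275TR.Triv

/-!
P275 (helper23): holomorphic frames of Dolbeault operators on a disc, block INT.
-/

set_option linter.all false

open scoped Topology ContDiff BoundedContinuousFunction Matrix.Norms.Operator
open Filter Set Complex Metric Matrix
open Vale.Agent.P281Z.Hm Vale.Agent.P275NA Vale.Agent.P275CT Vale.Agent.P275HK

noncomputable section

namespace Vale.Agent.P275IN

variable {n : Type} [Fintype n] [DecidableEq n]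

/-- a function on a disc, cut off -/
theorem exists_cut {c : ℂ} {r1 r2 : ℝ} (h0 : 0 < r1) (h1 : r1 < r2) : ∃ φ : ℂ → ℂ,
    ContDiff ℝ ∞ φ ∧ (∀ z, ‖φ z‖ ≤ 1) ∧ (∀ z ∈ closedBall c r1, φ z = 1) ∧
    tsupport φ = closedBall c r2 ∧ (∀ z, r2 < ‖z - c‖ → φ z = 0) ∧
    ∀ (U : Set ℂ) (β : ℂ → Mx n), IsOpen U → closedBall c r2 ⊆ U → ContDiffOn ℝ ∞ β U →
      ∃ γ : Bm n, (∀ z, γ z = φ z • β z) ∧ ContDiff ℝ ∞ γ := by
  obtain ⟨φ, c1, c2, c3, c4, c5⟩ := ex_cutC c h0 h1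
  refine ⟨φ, c1, c3, c4, c5, fun z hz =>
    image_eq_zero_of_notMem_tsupport (by simpa [c5, dist_eq_norm] using hz), fun U β hU hs hβ => ?_⟩
  have h := cd_cut hU c1 (c5 ▸ hs) hβ
  obtain ⟨γ, hγ⟩ := exists_bc h.continuous (cs_cut c2 β)
  exact ⟨γ, congrFun hγ, hγ ▸ h⟩

theorem cut_norm {φ : ℂ → ℂ} {β : ℂ → Mx n} {γ : Bm n} {c : ℂ} {R M : ℝ} (h1 : ∀ z, ‖φ z‖ ≤ 1)
    (h0 : ∀ z, R < ‖z - c‖ → φ z = 0) (e : ∀ z, γ z = φ z • β z) (hM : 0 ≤ M)
    (hβ : ∀ z ∈ closedBall c R, ‖β z‖ ≤ M) : ‖γ‖ ≤ M := by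
  refine (BoundedContinuousFunction.norm_le hM).2 fun z => ?_
  rw [e]
  by_cases h : R < ‖z - c‖
  · rwa [h0 z h, zero_smul, norm_zero]
  · rw [norm_smul]
    exact (mul_le_of_le_one_left (norm_nonneg _) (h1 z)).trans
      (hβ z (by simpa [dist_eq_norm] using h))

/-- local frames -/
theorem loc_frame {α : ℂ → Mx n} {U : Set ℂ} {c : ℂ} (hU : IsOpen U) (hc : c ∈ U)
    (hα : ContDiffOn ℝ ∞ α U) : ∃ ρ : ℝ, 0 < ρ ∧ ∃ u : ℂ → Mx n, ContDiff ℝ ∞ u ∧
      ∀ z ∈ ball c ρ, (u z).det ≠ 0 ∧ db u z + α z * u z = 0 := by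
  obtain ⟨ε, hε, hb⟩ := Metric.nhds_basis_closedBall.mem_iff.1 (hU.mem_nhds hc)
  obtain ⟨M, hM⟩ := (isCompact_closedBall c ε).exists_bound_of_continuousOn
    (hα.continuousOn.mono hb)
  have M0 : 0 ≤ M := (norm_nonneg _).trans (hM c (mem_closedBall_self hε.le))
  set R := min ε (1 / (20 * (M + 1)))
  have R0 : 0 < R := lt_min hε (by positivity)
  have hs : closedBall c R ⊆ closedBall c ε := closedBall_subset_closedBall (min_le_left _ _)
  have R1 : R * (20 * (M + 1)) ≤ 1 := (le_div_iff₀ (by positivity)).1 (min_le_right _ _)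
  obtain ⟨φ, -, c2, c3, -, c5, c6⟩ := exists_cut (n := n) (c := c) (half_pos R0) (half_lt_self R0)
  obtain ⟨γ, e, sm⟩ := c6 U α hU (hs.trans hb) hα
  obtain ⟨T, hT, hT'⟩ := exists_T (n := n) c R0
  have hq : ‖T‖ * ‖γ‖ < 1 / 2 := by
    have := mul_le_mul hT (cut_norm c2 c5 e M0 fun z hz => hM z (hs hz)) (norm_nonneg _)
      (by positivity)
    nlinarith
  obtain ⟨s1, s2, s3, -⟩ := core R0 hT' hq sm fun z hz => by rw [e, c5 z hz, zero_smul]
  refine ⟨R / 2, half_pos R0, _, s1, fun z hz => ⟨(s3 z).2, ?_⟩⟩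
  have := s2 z
  rwa [e, c3 z (ball_subset_closedBall hz), one_smul] at this

/-- two frames differ by a holomorphic matrix -/
theorem hol_quot {u v : ℂ → Mx n} {a : Mx n} {z : ℂ} (hu : DifferentiableAt ℝ u z)
    (hv : DifferentiableAt ℝ v z) (h0 : (u z).det ≠ 0) (eu : db u z + a * u z = 0)
    (ev : db v z + a * v z = 0) : DifferentiableAt ℂ (fun x => (u x)⁻¹ * v x) z := by
  refine hol_of_db (df_mul (df_inv hu h0) hv) ((wb_mul (df_inv hu h0) hv 1).trans ?_)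
  rw [wb_minv hu h0, show wb 1 u z = -(a * u z) from eq_neg_of_add_eq_zero_left eu,
    show wb 1 v z = -(a * v z) from eq_neg_of_add_eq_zero_left ev, Matrix.mul_assoc (u z)⁻¹,
    Matrix.neg_mul (a * u z), Matrix.mul_nonsing_inv_cancel_right _ _ h0.isUnit]
  noncomm_ring

theorem db_mul_hol {u s : ℂ → Mx n} {a : Mx n} {z : ℂ} (hu : DifferentiableAt ℝ u z)
    (hs : DifferentiableAt ℂ s z) (eu : db u z + a * u z = 0) :
    db (fun x => u x * s x) z + a * (u z * s z) = 0 := by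
  rw [db, wb_mul hu (hs.restrictScalars ℝ), wb_mhol hs, Matrix.mul_zero, add_zero,
    ← Matrix.mul_assoc, ← Matrix.add_mul]
  exact (congrArg (· * s z) eu).trans (Matrix.zero_mul _)

/-- frames on a disc -/
theorem exists_fr {α : ℂ → Mx n} {r' r : ℝ} (hr : r' < r) (hα : ContDiffOn ℝ ∞ α (ball 0 r)) :
    ∃ F : ℂ → Mx n, ∀ z ∈ ball (0 : ℂ) r',
      ContDiffAt ℝ ∞ F z ∧ (F z).det ≠ 0 ∧ db F z + α z * F z = 0 := by
  classical
  choose ρ ρ0 u sm hu using fun c : ball (0 : ℂ) r => loc_frame isOpen_ball c.2 hα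
  have df : ∀ c z, DifferentiableAt ℝ (u c) z := fun c z => (sm c).differentiable (by simp) z
  obtain ⟨s, hs, hg⟩ := P275TR.triv_ok n (ball (0 : ℂ) r) (fun c => ball c (ρ c))
    (fun c d z => (u c z)⁻¹ * u d z) r' r hr (fun _ => isOpen_ball)
    (fun z hz => ⟨⟨z, hz⟩, mem_ball_self (ρ0 _)⟩)
    (fun c d z hz => ⟨DifferentiableOn.analyticAt (s := ball c (ρ c) ∩ ball d (ρ d))
      (fun x hx => (hol_quot (df c x) (df d x) (hu c x hx.1).1 (hu c x hx.1).2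
        (hu d x hx.2).2).differentiableWithinAt) ((isOpen_ball.inter isOpen_ball).mem_nhds hz), by
      rw [det_mul, det_nonsing_inv, Ring.inverse_eq_inv]
      exact mul_ne_zero (inv_ne_zero (hu c z hz.1).1) (hu d z hz.2).1⟩)
    (fun c d e z hz => by
      rw [Matrix.mul_assoc, Matrix.mul_nonsing_inv_cancel_left _ _ (hu d z hz.1.2).1.isUnit])
  refine ⟨fun z => if h : z ∈ ball (0 : ℂ) r then u ⟨z, h⟩ z * s ⟨z, h⟩ z else 0, fun z hz => ?_⟩
  let c : ball (0 : ℂ) r := ⟨z, ball_subset_ball hr.le hz⟩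
  have hc : z ∈ ball (c : ℂ) (ρ c) := mem_ball_self (ρ0 c)
  have e : (fun z => if h : z ∈ ball (0 : ℂ) r then u ⟨z, h⟩ z * s ⟨z, h⟩ z else 0) =ᶠ[𝓝 z]
      fun x => u c x * s c x := by
    filter_upwards [isOpen_ball.mem_nhds hc, isOpen_ball.mem_nhds hz] with x h1 h2
    have h3 := ball_subset_ball hr.le h2
    have h4 : x ∈ ball ((⟨x, h3⟩ : ball (0 : ℂ) r) : ℂ) (ρ ⟨x, h3⟩) := mem_ball_self (ρ0 _)
    rw [dif_pos h3, hg ⟨x, h3⟩ c x ⟨⟨h4, h1⟩, h2⟩, ← Matrix.mul_assoc,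
      Matrix.mul_nonsing_inv_cancel_left _ _ (hu _ x h4).1.isUnit]
  obtain ⟨a1, a2⟩ := hs c z ⟨hc, hz⟩
  refine ⟨(cd_mul (sm c).contDiffAt
    ((a1.contDiffAt (n := ∞)).restrict_scalars ℝ)).congr_of_eventuallyEq e, ?_, ?_⟩
  · rw [e.self_of_nhds, det_mul]
    exact mul_ne_zero (hu c z hc).1 a2
  · rw [db, wb_congr e, e.self_of_nhds]
    exact db_mul_hol (df c z) a1.differentiableAt (hu c z hc).2

/-- holomorphic logarithms on a disc -/
theorem exists_log {d : ℂ → ℂ} {r : ℝ} (hd : DifferentiableOn ℂ d (ball 0 r))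
    (h0 : ∀ z ∈ ball (0 : ℂ) r, d z ≠ 0) :
    ∃ h : ℂ → ℂ, ∀ z ∈ ball (0 : ℂ) r, DifferentiableAt ℂ h z ∧ exp (h z) = d z := by
  obtain ⟨h, e0, hh⟩ := (((hd.deriv isOpen_ball).div hd h0).isExactOn_ball).with_val_at 0
    (log (d 0))
  refine ⟨h, fun z hz => ⟨(hh z hz).differentiableAt, ?_⟩⟩
  have z0 : (0 : ℂ) ∈ ball (0 : ℂ) r := mem_ball_self ((norm_nonneg _).trans_lt
    (mem_ball_zero_iff.1 hz))
  have := sol_zero (L := fun _ => 0) (y := fun x => exp (-h x) * d x - 1) (r := r)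
    continuousOn_const (fun x hx => by
      have h1 := (((hh x hx).fun_neg.cexp).fun_mul
        (hd.differentiableAt (isOpen_ball.mem_nhds hx)).hasDerivAt).sub_const 1
      refine h1.congr_deriv ?_
      have := h0 x hx
      simp only [Pi.div_apply, ContinuousLinearMap.zero_apply]
      field_simp
      ring) (by simp [e0, exp_neg, exp_log (h0 0 z0), h0 0 z0]) z hz
  rw [sub_eq_zero, exp_neg, inv_mul_eq_one₀ (exp_ne_zero _)] at this
  exact this

/-- frames of determinant one -/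
theorem exists_fr1 {α : ℂ → Mx n} {r' r : ℝ} (hr : r' < r) (hα : ContDiffOn ℝ ∞ α (ball 0 r))
    (ht : ∀ z ∈ ball (0 : ℂ) r, (α z).trace = 0) : ∃ F : ℂ → Mx n, ∀ z ∈ ball (0 : ℂ) r',
      ContDiffAt ℝ ∞ F z ∧ (F z).det = 1 ∧ db F z + α z * F z = 0 := by
  obtain ⟨F, hF⟩ := exists_fr hr hα
  have df : ∀ z ∈ ball (0 : ℂ) r', DifferentiableAt ℝ F z := fun z hz =>
    (hF z hz).1.differentiableAt (by simp)
  obtain ⟨h, hh⟩ := exists_log (d := fun x => (F x).det) (r := r') (fun z hz =>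
    (det_hol (df z hz) (hF z hz).2.1 (hF z hz).2.2
      (ht z (ball_subset_ball hr.le hz))).differentiableWithinAt) fun z hz => (hF z hz).2.1
  have an : ∀ z ∈ ball (0 : ℂ) r', AnalyticAt ℂ
      (fun x => exp (-h x / Fintype.card n) • (1 : Mx n)) z := fun z hz =>
    DifferentiableOn.analyticAt (s := ball 0 r') (fun x hx =>
      (((hh x hx).1.neg.div_const _).cexp.smul_const _).differentiableWithinAt)
      (isOpen_ball.mem_nhds hz)
  refine ⟨fun x => F x * (exp (-h x / Fintype.card n) • (1 : Mx n)), fun z hz =>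
    ⟨cd_mul (hF z hz).1 (((an z hz).contDiffAt (n := ∞)).restrict_scalars ℝ), ?_,
      db_mul_hol (df z hz) (an z hz).differentiableAt (hF z hz).2.2⟩⟩
  rcases isEmpty_or_nonempty n with hn | hn
  · exact det_isEmpty
  · have : (Fintype.card n : ℂ) ≠ 0 := by exact_mod_cast Fintype.card_ne_zero
    show (F z * _).det = 1
    rw [det_mul, det_smul, det_one, mul_one, ← exp_nat_mul, mul_div_cancel₀ _ this, ← (hh z hz).2,
      ← exp_add, add_neg_cancel, exp_zero]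

/-- the product of a frame for `a` and a frame for the conjugated difference -/
theorem db_prod {F u : ℂ → Mx n} {a b : Mx n} {z : ℂ} (hF : DifferentiableAt ℝ F z)
    (hu : DifferentiableAt ℝ u z) (h0 : (F z).det ≠ 0) (eF : db F z + a * F z = 0)
    (eu : db u z + (F z)⁻¹ * (b - a) * F z * u z = 0) :
    db (fun x => F x * u x) z + b * (F z * u z) = 0 := by
  rw [db, wb_mul hF hu, show wb 1 F z = -(a * F z) from eq_neg_of_add_eq_zero_left eF,
    show wb 1 u z = -(_ * u z) from eq_neg_of_add_eq_zero_left eu, Matrix.mul_neg,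
    Matrix.mul_assoc (F z)⁻¹, Matrix.mul_assoc (F z)⁻¹,
    Matrix.mul_nonsing_inv_cancel_left _ _ h0.isUnit]
  noncomm_ring

theorem radii {r' r : ℝ} (hr : r' < r) (h0 : 0 < r) :
    ∃ r1 r2 r3 : ℝ, r' < r1 ∧ 0 < r1 ∧ r1 < r2 ∧ r2 < r3 ∧ r3 < r := by
  obtain ⟨r1, a1, a2⟩ := exists_between (max_lt hr h0)
  obtain ⟨r2, a3, a4⟩ := exists_between a2
  obtain ⟨r3, a5, a6⟩ := exists_between a4
  exact ⟨r1, r2, r3, (le_max_left _ _).trans_lt a1, (le_max_right _ _).trans_lt a1, a3, a5, a6⟩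

theorem int : INT := by
  intro n _ _ r' r α hr hα
  rcases le_or_gt r 0 with h0 | h0
  · rw [ball_eq_empty.2 (hr.le.trans h0)]
    exact ⟨0, contDiffOn_empty, fun _ h => h.elim, fun _ _ => ⟨1, one_pos, fun _ _ _ =>
      ⟨0, contDiffOn_empty, fun _ h => h.elim⟩⟩⟩
  obtain ⟨r1, r2, r3, a1, a2, a3, a4, a5⟩ := radii hr h0
  obtain ⟨F, hF⟩ := exists_fr a5 hα
  have s1 : ball (0 : ℂ) r' ⊆ ball 0 r3 := ball_subset_ball (by linarith)
  have s2 : closedBall (0 : ℂ) r2 ⊆ ball 0 r3 := closedBall_subset_ball a4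
  have s3 : ball (0 : ℂ) r3 ⊆ ball 0 r := ball_subset_ball a5.le
  have c1 : ContDiffOn ℝ ∞ F (ball 0 r3) := fun z hz => (hF z hz).1.contDiffWithinAt
  have c2 : ContDiffOn ℝ ∞ (fun z => (F z)⁻¹) (ball 0 r3) := fun z hz =>
    (cd_inv (hF z hz).1 (hF z hz).2.1).contDiffWithinAt
  refine ⟨F, c1.mono s1, fun z hz => (hF z (s1 hz)).2, fun ε hε => ?_⟩
  obtain ⟨M, hM⟩ := (isCompact_closedBall (0 : ℂ) r2).exists_bound_of_continuousOn
    (c1.continuousOn.mono s2)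
  obtain ⟨N, hN⟩ := (isCompact_closedBall (0 : ℂ) r2).exists_bound_of_continuousOn
    (c2.continuousOn.mono s2)
  have R0 : 0 < r2 := a2.trans a3
  have M0 : 0 ≤ M := (norm_nonneg _).trans (hM 0 (mem_closedBall_self R0.le))
  have N0 : 0 ≤ N := (norm_nonneg _).trans (hN 0 (mem_closedBall_self R0.le))
  obtain ⟨φ, -, p2, p3, -, p5, p6⟩ := exists_cut (n := n) (c := 0) a2 a3
  obtain ⟨T, hT, hT'⟩ := exists_T (n := n) 0 R0
  have t1 : ∀ᶠ δ in 𝓝 (0 : ℝ), 9 * r2 * (N * δ * M) < 1 / 2 :=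
    ContinuousAt.eventually_lt (by fun_prop) continuousAt_const (by simp)
  have t2 : ∀ᶠ δ in 𝓝 (0 : ℝ), M * (2 * (9 * r2 * (N * δ * M))) < ε :=
    ContinuousAt.eventually_lt (by fun_prop) continuousAt_const (by simpa using hε)
  obtain ⟨δ, ⟨d1, d2⟩, d0⟩ := (((t1.and t2).filter_mono nhdsWithin_le_nhds).and
      (self_mem_nhdsWithin (a := (0 : ℝ)) (s := Ioi 0))).exists
  have d0' : 0 < δ := d0
  refine ⟨δ, d0, fun β hβ hδ => ?_⟩
  obtain ⟨γ, e, sm⟩ := p6 _ (fun z => (F z)⁻¹ * (β z - α z) * F z) isOpen_ball s2 fun z hz =>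
    (cd_mul (cd_mul (c2.contDiffAt (isOpen_ball.mem_nhds hz))
      ((hβ.sub hα).contDiffAt (isOpen_ball.mem_nhds (s3 hz)))) (hF z hz).1).contDiffWithinAt
  have hq : ‖T‖ * ‖γ‖ ≤ 9 * r2 * (N * δ * M) := by
    refine mul_le_mul hT (cut_norm p2 p5 e (by positivity) fun z hz => ?_) (norm_nonneg _)
      (by positivity)
    refine (norm_mul_le _ _).trans (mul_le_mul ((norm_mul_le _ _).trans ?_) (hM z hz)
      (norm_nonneg _) (by positivity))
    exact mul_le_mul (hN z hz) (hδ z (s3 (s2 hz))) (norm_nonneg _) N0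
  obtain ⟨u1, u2, u3, -⟩ := core R0 hT' (hq.trans_lt d1) sm fun z hz => by
    rw [e, p5 z hz, zero_smul]
  refine ⟨fun z => F z * sol T γ z, fun z hz =>
    (cd_mul (hF z (s1 hz)).1 u1.contDiffAt).contDiffWithinAt, fun z hz => ⟨?_, ?_, ?_⟩⟩
  · rw [det_mul]
    exact mul_ne_zero (hF z (s1 hz)).2.1 (u3 z).2
  · have := u2 z
    rw [e, p3 z (ball_subset_closedBall (ball_subset_ball a1.le hz)), one_smul] at this
    exact db_prod ((hF z (s1 hz)).1.differentiableAt (by simp)) (u1.differentiable (by simp) z)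
      (hF z (s1 hz)).2.1 (hF z (s1 hz)).2.2 this
  · have e' : F z * sol T γ z - F z = F z * (sol T γ z - 1) := by noncomm_ring
    refine (congrArg norm e').trans_le ((norm_mul_le _ _).trans (le_trans ?_ d2.le))
    exact mul_le_mul (hM z (ball_subset_closedBall (ball_subset_ball (by linarith) hz)))
      ((u3 z).1.trans (by linarith)) (norm_nonneg _) M0

end Vale.Agent.P275IN
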