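import Vale.Agent.P275CT.Weyl
import Vale.Agent.P275HK.Cal
import Mathlib.Analysis.Complex.Liouville
import Mathlib.Topology.ContinuousMap.Bounded.Normed

/-!
P275 (helper23): the equation `db u + γ u = 0` for small `γ`, by the Neumann series.
-/

set_option linter.all false

open scoped Topology ContDiff BoundedContinuousFunction Matrix.Norms.Operator
open Filter Set Complex Metric MeasureTheory
open Vale.Agent.P281Z.Hm Vale.Agent.P275NA Vale.Agent.P275CT

noncomputable section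

namespace Vale.Agent.P275IN

section translate

variable {F : Type} [NormedAddCommGroup F]

/-- translation -/
def tr (f : ℂ →ᵇ F) (a : ℂ) : ℂ →ᵇ F := f.compContinuous ⟨fun z => z + a, by fun_prop⟩

theorem tr_apply (f : ℂ →ᵇ F) (a z : ℂ) : tr f a z = f (z + a) := rfl

theorem norm_tr (f : ℂ →ᵇ F) (a : ℂ) : ‖tr f a‖ ≤ ‖f‖ :=
  BoundedContinuousFunction.norm_compContinuous_le _ _

theorem exists_bc {f : ℂ → F} (hf : Continuous f) (hc : HasCompactSupport f) :
    ∃ g : ℂ →ᵇ F, ⇑g = f := by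
  obtain ⟨M, hM⟩ := hf.bounded_above_of_compact_support hc
  exact ⟨BoundedContinuousFunction.ofNormedAddCommGroup f hf M hM, rfl⟩

theorem tr_cont (f : ℂ →ᵇ F) (hc : HasCompactSupport f) : Continuous (tr f) := by
  refine Metric.continuous_iff.2 fun b ε hε => ?_
  obtain ⟨δ, hδ, h⟩ := Metric.uniformContinuous_iff.1
    (hc.uniformContinuous_of_continuous f.continuous) (ε / 2) (half_pos hε)
  refine ⟨δ, hδ, fun a ha => lt_of_le_of_lt ?_ (half_lt_self hε)⟩
  exact (BoundedContinuousFunction.dist_le (half_pos hε).le).2 fun z =>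
    (h (by simpa using ha)).le

variable [NormedSpace ℝ F]

theorem tr_cd (k : ℕ) : ∀ f : ℂ →ᵇ F, ContDiff ℝ ∞ f → HasCompactSupport f →
    ContDiff ℝ k (tr f) := by
  induction k with
  | zero => exact fun f _ hc => contDiff_zero.2 (tr_cont f hc)
  | succ k ih =>
    intro f hf hc
    have hD : ContDiff ℝ ∞ (fderiv ℝ f) := hf.fderiv_right (by simp)
    have hv : ∀ v : ℂ, ∃ g : ℂ →ᵇ F, (∀ z, g z = fderiv ℝ f z v) ∧ ContDiff ℝ k (tr g) := by
      intro v
      have h1 : ContDiff ℝ ∞ fun z => fderiv ℝ f z v := hD.clm_apply contDiff_const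
      have h2 : HasCompactSupport fun z => fderiv ℝ f z v := hc.fderiv_apply ℝ v
      obtain ⟨g, hg⟩ := exists_bc h1.continuous h2
      exact ⟨g, fun z => congrFun hg z, ih g (hg ▸ h1) (hg ▸ h2)⟩
    obtain ⟨g1, e1, c1⟩ := hv 1
    obtain ⟨g2, e2, c2⟩ := hv I
    push_cast
    refine contDiff_succ_iff_hasFDerivAt.2 ⟨fun a => reCLM.smulRight (tr g1 a) +
      imCLM.smulRight (tr g2 a), (contDiff_const.smulRight c1).add (contDiff_const.smulRight c2),
      fun a => ?_⟩
    rw [hasFDerivAt_iff_isLittleO_nhds_zero, Asymptotics.isLittleO_iff]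
    intro ε hε
    obtain ⟨δ, hδ, h⟩ := Metric.uniformContinuous_iff.1
      ((hc.fderiv ℝ).uniformContinuous_of_continuous hD.continuous) ε hε
    filter_upwards [ball_mem_nhds (0 : ℂ) hδ] with x hx
    refine (BoundedContinuousFunction.norm_le (by positivity)).2 fun z => ?_
    have := (convex_ball (z + a) δ).norm_image_sub_le_of_norm_fderiv_le' (𝕜 := ℝ) (f := f)
      (φ := fderiv ℝ f (z + a)) (C := ε) (x := z + a) (y := z + (a + x))
      (fun y _ => (hf.differentiable (by simp)) y)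
      (fun y hy => by rw [← dist_eq_norm]; exact (h hy).le) (mem_ball_self hδ)
      (by simpa [dist_eq_norm] using hx)
    have e : z + (a + x) - (z + a) = x := by ring
    rw [e] at this
    have e' : fderiv ℝ f (z + a) x = x.re • g1 (z + a) + x.im • g2 (z + a) := by
      rw [e1, e2, ← map_smul, ← map_smul, ← map_add]
      congr 1
      simp
    rw [e'] at this
    exact this

theorem tr_smooth (f : ℂ →ᵇ F) (hf : ContDiff ℝ ∞ f) (hc : HasCompactSupport f) :
    ContDiff ℝ ∞ (tr f) := contDiff_infty.2 fun k => tr_cd k f hf hc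

end translate

section op

variable {F : Type} [NormedAddCommGroup F] [NormedSpace ℝ F] [NormedSpace ℂ F]
  [IsScalarTower ℝ ℂ F]

theorem cT_tr (g : ℂ → F) (a z : ℂ) : cT (fun x => g (x + a)) z = cT g (z + a) := by
  simp only [cT, add_sub_right_comm]

theorem cT_bd {g : ℂ → F} {c : ℂ} {R M : ℝ} (hR : 0 < R) (hs : ∀ z, R < ‖z - c‖ → g z = 0)
    (hM : ∀ z, ‖g z‖ ≤ M) (z : ℂ) : ‖cT g z‖ ≤ 3 * R * M := by
  have := cT_bound (g := fun x => g (x + c)) hR (fun x hx => hs _ (by simpa using hx))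
    (fun x => hM _) (z - c)
  rwa [cT_tr, sub_add_cancel] at this

theorem cs_at {g : ℂ → F} {c : ℂ} {R : ℝ} (hs : ∀ z, R < ‖z - c‖ → g z = 0) :
    HasCompactSupport g :=
  HasCompactSupport.intro (isCompact_closedBall c R) fun z hz =>
    hs z (by simpa [dist_eq_norm] using hz)

theorem cT_lim {g : ℂ → F} (hg : Continuous g) (hc : HasCompactSupport g) :
    Tendsto (cT g) (cocompact ℂ) (𝓝 0) := by
  obtain ⟨R, hR, hs⟩ := ex_R hc
  have h1 : Tendsto (fun z : ℂ => (‖z‖ - R)⁻¹ * ∫ ξ, ‖g ξ‖) (cocompact ℂ) (𝓝 0) := by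
    simpa [sub_eq_add_neg] using (tendsto_atTop_add_const_right _ (-R)
      (tendsto_norm_cocompact_atTop (E := ℂ))).inv_tendsto_atTop.mul_const (∫ ξ, ‖g ξ‖)
  have h2 : Tendsto (cK (fun w => w⁻¹) g) (cocompact ℂ) (𝓝 0) := by
    refine squeeze_zero_norm' ?_ h1
    filter_upwards [(tendsto_norm_cocompact_atTop (E := ℂ)).eventually_gt_atTop R] with z hz
    rw [cK_eq, ← integral_const_mul]
    refine norm_integral_le_of_norm_le
      ((hg.integrable_of_hasCompactSupport hc).norm.const_mul _) (Eventually.of_forall fun ξ => ?_)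
    by_cases h : R < ‖ξ‖
    · simp [hs ξ h]
    · rw [norm_smul, norm_inv]
      have hz' : R < ‖z‖ := hz
      exact mul_le_mul_of_nonneg_right (inv_anti₀ (by linarith)
        (by linarith [norm_sub_norm_le z ξ, not_lt.1 h])) (norm_nonneg _)
  simpa [cT_eq] using h2.const_smul ((Real.pi : ℂ)⁻¹)

/-- the Cauchy transform with a cut-off as a bounded operator -/
theorem exists_op {χ : ℂ → ℂ} {c : ℂ} {R : ℝ} (hR : 0 < R) (h0 : Continuous χ)
    (h1 : ∀ z, ‖χ z‖ ≤ 1) (hs : ∀ z, R < ‖z - c‖ → χ z = 0) :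
    ∃ T : (ℂ →ᵇ F) →L[ℂ] (ℂ →ᵇ F), ‖T‖ ≤ 3 * R ∧ ∀ g z, T g z = cT (fun x => χ x • g x) z := by
  have a1 : ∀ g : ℂ →ᵇ F, Continuous fun x => χ x • g x := fun g => h0.smul g.continuous
  have a2 : ∀ g : ℂ →ᵇ F, ∀ z, R < ‖z - c‖ → χ z • g z = 0 := fun g z hz => by
    rw [hs z hz, zero_smul]
  have a3 : ∀ g : ℂ →ᵇ F, ∀ z, ‖cT (fun x => χ x • g x) z‖ ≤ 3 * R * ‖g‖ := fun g =>
    cT_bd hR (a2 g) fun z => by
      rw [norm_smul]
      exact (mul_le_of_le_one_left (norm_nonneg _) (h1 z)).trans (g.norm_coe_le_norm z)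
  let L : (ℂ →ᵇ F) →ₗ[ℂ] (ℂ →ᵇ F) :=
    { toFun := fun g => BoundedContinuousFunction.ofNormedAddCommGroup _
        (cT_cont (a1 g) (cs_at (a2 g))) _ (a3 g)
      map_add' := fun f g => BoundedContinuousFunction.ext fun z => by
        have := cT_add (a1 f) (cs_at (a2 f)) (a1 g) (cs_at (a2 g)) z
        simp only [← smul_add] at this
        exact this
      map_smul' := fun a g => BoundedContinuousFunction.ext fun z => by
        show cT (fun x => χ x • a • g x) z = a • cT (fun x => χ x • g x) z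
        simp only [cT_eq, smul_comm (χ _) a, cK_smul]
        rw [smul_comm] }
  have b : ∀ g, ‖L g‖ ≤ 3 * R * ‖g‖ := fun g =>
    (BoundedContinuousFunction.norm_le (by positivity)).2 (a3 g)
  exact ⟨L.mkContinuous _ b, L.mkContinuous_norm_le (by positivity) b, fun _ _ => rfl⟩

end op

section sol

variable {B : Type} [NormedRing B] [NormedAlgebra ℂ B] [CompleteSpace B]

/-- the solution of `u + T (γ u) = f` -/
def slv (T : B →L[ℂ] B) (γ f : B) : B :=
  Ring.inverse (1 + T.comp (ContinuousLinearMap.mul ℂ B γ)) f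

/-- the solution of `u + T (γ u) = 1` -/
def sol (T : B →L[ℂ] B) (γ : B) : B := slv T γ 1

/-- the derivative of the solution, `γ'` being the derivative of `γ` -/
def dsol (T : B →L[ℂ] B) (γ γ' : B) : B := slv T γ (-T (γ' * sol T γ))

theorem sol_unit {T : B →L[ℂ] B} {γ : B} (h : ‖T‖ * ‖γ‖ < 1) :
    IsUnit (1 + T.comp (ContinuousLinearMap.mul ℂ B γ)) := by
  rw [← sub_neg_eq_add]
  refine isUnit_one_sub_of_norm_lt_one ?_
  rw [norm_neg]
  exact ((ContinuousLinearMap.opNorm_comp_le _ _).trans (mul_le_mul_of_nonneg_left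
    (ContinuousLinearMap.opNorm_mul_apply_le ℂ B γ) (norm_nonneg _))).trans_lt h

theorem slv_eq {T : B →L[ℂ] B} {γ : B} (h : ‖T‖ * ‖γ‖ < 1) (f : B) :
    slv T γ f + T (γ * slv T γ f) = f :=
  congrArg (fun L : B →L[ℂ] B => L f) (Ring.mul_inverse_cancel _ (sol_unit h))

theorem slv_uniq {T : B →L[ℂ] B} {γ u f : B} (h : ‖T‖ * ‖γ‖ < 1) (hu : u + T (γ * u) = f) :
    u = slv T γ f := by
  have := congrArg (fun L : B →L[ℂ] B => L u) (Ring.inverse_mul_cancel _ (sol_unit h))
  rw [slv, ← hu]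
  exact this.symm

theorem sol_zero' (T : B →L[ℂ] B) : sol T 0 = 1 :=
  (slv_uniq (by simp) (by simp)).symm

theorem dsol_zero (T : B →L[ℂ] B) : dsol T 0 0 = 0 :=
  (slv_uniq (by simp) (by simp)).symm

theorem slv_an {T : B →L[ℂ] B} {γ : B} (h : ‖T‖ * ‖γ‖ < 1) (f : B) :
    AnalyticAt ℂ (fun p : B × B => slv T p.1 p.2) (γ, f) := by
  obtain ⟨u, hu⟩ := sol_unit h
  have h1 : AnalyticAt ℂ (fun x : B => 1 + T.comp (ContinuousLinearMap.mul ℂ B x)) γ :=
    analyticAt_const.add (((ContinuousLinearMap.compL ℂ B B B T).comp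
      (ContinuousLinearMap.mul ℂ B)).analyticAt γ)
  have h2 := ((analyticAt_inverse (𝕜 := ℂ) u).comp_of_eq h1 hu.symm).comp_of_eq
    (analyticAt_fst (p := (γ, f))) rfl
  exact ((ContinuousLinearMap.id ℂ (B →L[ℂ] B)).analyticAt_bilinear _).comp₂ h2 analyticAt_snd

theorem sol_an {T : B →L[ℂ] B} {γ : B} (h : ‖T‖ * ‖γ‖ < 1) : AnalyticAt ℂ (sol T) γ :=
  (slv_an h 1).comp_of_eq (f := fun x => (x, 1)) (analyticAt_id.prod analyticAt_const) rfl

theorem dsol_an {T : B →L[ℂ] B} {γ : B} (h : ‖T‖ * ‖γ‖ < 1) (γ' : B) :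
    AnalyticAt ℂ (fun p : B × B => dsol T p.1 p.2) (γ, γ') :=
  (slv_an h _).comp_of_eq (f := fun p : B × B => (p.1, -T (p.2 * sol T p.1))) (analyticAt_fst.prod
    ((T.analyticAt _).comp (analyticAt_snd.mul ((sol_an h).comp_of_eq analyticAt_fst rfl))).neg) rfl

theorem sol_near {T : B →L[ℂ] B} {γ : B} (h1 : ‖(1 : B)‖ ≤ 1) (hq : ‖T‖ * ‖γ‖ ≤ 1 / 2) :
    ‖sol T γ - 1‖ ≤ 2 * (‖T‖ * ‖γ‖) := by
  have e : sol T γ + T (γ * sol T γ) = 1 := slv_eq (by linarith) 1
  have e' : sol T γ - 1 = -T (γ * sol T γ) := by rw [← e]; abel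
  have q0 : 0 ≤ ‖T‖ * ‖γ‖ := by positivity
  have b1 : ‖sol T γ‖ ≤ ‖sol T γ - 1‖ + 1 := by
    have := norm_add_le (sol T γ - 1) 1
    rw [sub_add_cancel] at this
    linarith
  have b2 : ‖sol T γ - 1‖ ≤ ‖T‖ * ‖γ‖ * (‖sol T γ - 1‖ + 1) := by
    calc _ = ‖T (γ * sol T γ)‖ := by rw [e', norm_neg]
      _ ≤ ‖T‖ * (‖γ‖ * ‖sol T γ‖) :=
        (T.le_opNorm _).trans (mul_le_mul_of_nonneg_left (norm_mul_le _ _) (norm_nonneg _))
      _ ≤ _ := by
        rw [← mul_assoc]
        exact mul_le_mul_of_nonneg_left b1 q0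
  nlinarith [norm_nonneg (sol T γ - 1)]

end sol

section small

variable {n : Type} [Fintype n] [DecidableEq n]

/-- bounded continuous matrix valued functions -/
abbrev Bm (n : Type) [Fintype n] [DecidableEq n] : Type := ℂ →ᵇ Mx n

theorem norm_one_le : ‖(1 : Mx n)‖ ≤ 1 := by
  rw [← Matrix.diagonal_one, Matrix.linfty_opNorm_diagonal]
  exact (pi_norm_le_iff_of_nonneg zero_le_one).2 fun _ => by simp

theorem norm_one_le' : ‖(1 : Bm n)‖ ≤ 1 :=
  (BoundedContinuousFunction.norm_le zero_le_one).2 fun _ => norm_one_le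

theorem det_near {X : Mx n} (h : ‖X - 1‖ < 1) : X.det ≠ 0 := by
  have := isUnit_one_sub_of_norm_lt_one (x := 1 - X) (by rwa [norm_sub_rev])
  rw [sub_sub_cancel] at this
  exact ((Matrix.isUnit_iff_isUnit_det _).1 this).ne_zero

theorem hol_of_db {F : Type} [NormedAddCommGroup F] [NormedSpace ℝ F] [NormedSpace ℂ F]
    [IsScalarTower ℝ ℂ F] {f : ℂ → F} {z : ℂ} (hf : DifferentiableAt ℝ f z) (h : db f z = 0) :
    DifferentiableAt ℂ f z := hol_of_wb hf fun v => by
  have := wb_smulv v f z 1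
  rw [smul_eq_mul, mul_one] at this
  rw [this, show wb 1 f z = 0 from h, smul_zero]

theorem det_hol {u : ℂ → Mx n} {a : Mx n} {z : ℂ} (hu : DifferentiableAt ℝ u z)
    (h0 : (u z).det ≠ 0) (e : db u z + a * u z = 0) (ht : a.trace = 0) :
    DifferentiableAt ℂ (fun x => (u x).det) z := by
  refine hol_of_db (df_det hu) ((wb_det hu h0 1).trans ?_)
  rw [show wb 1 u z = -(a * u z) from eq_neg_of_add_eq_zero_left e, Matrix.mul_neg,
    Matrix.trace_neg, Matrix.trace_mul_comm, Matrix.mul_nonsing_inv_cancel_right _ _ h0.isUnit, ht,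
    neg_zero, mul_zero]

/-- `T` is the Cauchy transform on the functions supported in the disc of radius `2 R` -/
def IsT (c : ℂ) (R : ℝ) (T : Bm n →L[ℂ] Bm n) : Prop := ∀ g : Bm n,
  (∀ z, 2 * R < ‖z - c‖ → g z = 0) → ∀ z, T g z = cT g z

theorem exists_T (c : ℂ) {R : ℝ} (hR : 0 < R) :
    ∃ T : Bm n →L[ℂ] Bm n, ‖T‖ ≤ 9 * R ∧ IsT c R T := by
  obtain ⟨χ, c1, -, c3, c4, c5⟩ := ex_cutC c (r := 2 * R) (R := 3 * R) (by linarith) (by linarith)
  obtain ⟨T, hT, hT'⟩ := exists_op (F := Mx n) (c := c) (R := 3 * R) (by linarith) c1.continuous c3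
    fun z hz => image_eq_zero_of_notMem_tsupport (by simpa [c5, dist_eq_norm] using hz)
  refine ⟨T, hT.trans (le_of_eq (by ring)), fun g hg z => (hT' g z).trans ?_⟩
  congr 1
  funext x
  by_cases h : 2 * R < ‖x - c‖
  · rw [hg x h, smul_zero]
  · rw [c4 x (by simpa [dist_eq_norm] using h), one_smul]

variable {T : Bm n →L[ℂ] Bm n} {γ : Bm n} {c : ℂ} {R : ℝ}

theorem sol_pt (hT : IsT c R T) (h : ‖T‖ * ‖γ‖ < 1) (hs : ∀ z, 2 * R < ‖z - c‖ → γ z = 0) (z : ℂ) :
    sol T γ z = 1 - cT (fun x => γ x * sol T γ x) z := by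
  have e := congrArg (fun f : Bm n => f z) (slv_eq h 1)
  have e' := hT (γ * sol T γ) (fun x hx => by
    rw [BoundedContinuousFunction.mul_apply, hs x hx, zero_mul]) z
  exact eq_sub_of_add_eq (e' ▸ e)

/-- smoothness of the solution, by the translation trick -/
theorem sol_smooth (hR : 0 < R) (hT : IsT c R T) (h : ‖T‖ * ‖γ‖ < 1) (hγ : ContDiff ℝ ∞ γ)
    (hs : ∀ z, R < ‖z - c‖ → γ z = 0) : ContDiff ℝ ∞ ⇑(sol T γ) := by
  have e0 := sol_pt hT h fun z hz => hs z (by linarith)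
  have hn : ∀ a, ‖T‖ * ‖tr γ a‖ < 1 := fun a =>
    (mul_le_mul_of_nonneg_left (norm_tr γ a) T.opNorm_nonneg).trans_lt h
  have e1 : ∀ a : ℂ, ‖a‖ < R → tr (sol T γ) a = sol T (tr γ a) := fun a ha => by
    refine slv_uniq (hn a) (BoundedContinuousFunction.ext fun z => ?_)
    have e' := hT (tr γ a * tr (sol T γ) a) (fun x hx => by
      have := norm_sub_le (x + a - c) a
      rw [show x + a - c - a = x - c by ring] at this
      rw [BoundedContinuousFunction.mul_apply, tr_apply, hs _ (by linarith), zero_mul]) z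
    rw [BoundedContinuousFunction.add_apply, e', tr_apply, e0 (z + a), ← cT_tr]
    exact sub_add_cancel _ _
  refine contDiff_iff_contDiffAt.2 fun z => ?_
  have c1 : ContDiffAt ℝ ∞ (fun a => sol T (tr γ a)) (z - z) :=
    ((sol_an (hn _)).contDiffAt.restrict_scalars ℝ).comp _ (tr_smooth γ hγ (cs_at hs)).contDiffAt
  have c2 := (BoundedContinuousFunction.evalCLM ℝ z : Bm n →L[ℝ] Mx n).contDiff.contDiffAt.comp z
      (c1.comp (f := fun x => x - z) z (contDiffAt_id.sub contDiffAt_const))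
  refine c2.congr_of_eventuallyEq ?_
  filter_upwards [ball_mem_nhds z hR] with x hx
  show _ = sol T (tr γ (x - z)) z
  rw [← e1 _ (by simpa [dist_eq_norm] using hx), tr_apply, add_sub_cancel]

/-- the properties of the solution -/
theorem core (hR : 0 < R) (hT : IsT c R T) (h : ‖T‖ * ‖γ‖ < 1 / 2) (hγ : ContDiff ℝ ∞ γ)
    (hs : ∀ z, R < ‖z - c‖ → γ z = 0) :
    ContDiff ℝ ∞ ⇑(sol T γ) ∧ (∀ z, db (⇑(sol T γ)) z + γ z * sol T γ z = 0) ∧
    (∀ z, ‖sol T γ z - 1‖ ≤ 2 * (‖T‖ * ‖γ‖) ∧ (sol T γ z).det ≠ 0) ∧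
    ((∀ z, (γ z).trace = 0) → ∀ z, (sol T γ z).det = 1) ∧
    ∀ γ' : Bm n, (∀ z, γ' z = dz (⇑γ) z) → ∀ z, dsol T γ γ' z = dz (⇑(sol T γ)) z := by
  have h' : ‖T‖ * ‖γ‖ < 1 := by linarith
  have sm := sol_smooth hR hT h' hγ hs
  have e0 := sol_pt hT h' fun z hz => hs z (by linarith)
  have m0 : ContDiff ℝ ∞ fun x => γ x * sol T γ x := contDiff_iff_contDiffAt.2 fun z =>
    P275HK.cd_mul hγ.contDiffAt sm.contDiffAt
  have m1 : ContDiff ℝ 1 fun x => γ x * sol T γ x := m0.of_le (by exact_mod_cast le_top)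
  have m2 : HasCompactSupport fun x => γ x * sol T γ x := (cs_at hs).mul_right
  have m3 := (cT_cd (n := 1) m1 m2).differentiable one_ne_zero
  have d1 := sm.differentiable (by simp)
  have d2 := hγ.differentiable (by simp)
  have E : ∀ z, db (⇑(sol T γ)) z + γ z * sol T γ z = 0 := fun z => by
    rw [db, wb_congr (Eventually.of_forall e0) 1, wb_sub (differentiableAt_const _) (m3 z),
      wb_const, zero_sub]
    exact neg_add_eq_zero.2 (congrFun (db_cT m1 m2) z)
  have N : ∀ z, ‖sol T γ z - 1‖ ≤ 2 * (‖T‖ * ‖γ‖) := fun z =>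
    ((sol T γ - 1).norm_coe_le_norm z).trans (sol_near norm_one_le' h.le)
  have D : ∀ z, (sol T γ z).det ≠ 0 := fun z => det_near ((N z).trans_lt (by linarith))
  refine ⟨sm, E, fun z => ⟨N z, D z⟩, fun ht z => ?_, fun γ' hγ' z => ?_⟩
  · refine Differentiable.apply_eq_of_tendsto_cocompact (f := fun x => (sol T γ x).det)
      (fun x => det_hol (d1 x) (D x) (E x) (ht x)) z ?_
    have l1 : Tendsto (⇑(sol T γ)) (cocompact ℂ) (𝓝 1) := by
      rw [show ⇑(sol T γ) = _ from funext e0]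
      have := (cT_lim m1.continuous m2).const_sub 1
      rw [sub_zero] at this
      exact this
    have l2 : ContinuousAt (fun X : Mx n => X.det) 1 :=
      (an_det (𝕜 := ℂ) (f := id) analyticAt_id).continuousAt
    simpa [Function.comp_def] using l2.tendsto.comp l1
  · have e1 : ∀ x, dz (⇑(sol T γ)) x = -cT (dz fun x => γ x * sol T γ x) x := fun x => by
      rw [dz, wd_congr (Eventually.of_forall e0) 1, wd_sub (differentiableAt_const _) (m3 x),
        wd_const, zero_sub]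
      exact congrArg Neg.neg (congrFun (dz_cT m1 m2) x)
    obtain ⟨G, hG⟩ := exists_bc (dz_cont m1) (dz_cs m2)
    have G0 : ∀ x, 2 * R < ‖x - c‖ → G x = 0 := fun x hx => by
      rw [hG]
      refine image_eq_zero_of_notMem_tsupport fun hx' => ?_
      have : tsupport (fun x => γ x * sol T γ x) ⊆ closedBall c R :=
        closure_minimal (fun y hy => by
          by_contra hy'
          exact hy (by simp only [hs y (by simpa [dist_eq_norm] using hy'), zero_mul]))
          isClosed_closedBall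
      have := this (dz_ts _ hx')
      rw [mem_closedBall, dist_eq_norm] at this
      linarith
    have e2 : ∀ x, (-T G) x = dz (⇑(sol T γ)) x := fun x => by
      rw [e1, BoundedContinuousFunction.neg_apply, hT G G0, hG]
    have e3 : G = γ' * sol T γ + γ * -T G := BoundedContinuousFunction.ext fun x => by
      rw [BoundedContinuousFunction.add_apply, BoundedContinuousFunction.mul_apply,
        BoundedContinuousFunction.mul_apply, e2, hγ', hG]
      exact wd_mul (d2 x) (d1 x) 1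
    rw [← e2, dsol, ← slv_uniq (u := -T G) h' ?_]
    have e4 := congrArg T e3
    rw [map_add] at e4
    rw [neg_add_eq_iff_eq_add, add_comm, neg_add_eq_sub, eq_sub_iff_add_eq, add_comm]
    exact e4.symm

end small

end Vale.Agent.P275IN
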